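import Vale.Agent.P181.TR.Defs
import Vale.Agent.P181.TL.H850.Join
import Vale.Agent.P181.H530.Pad

set_option autoImplicit false

/-!
# P181, TR (R9): every shape with a dominating first row, `b ≥ 5 a`

If none of the theorems for fat shapes, for `b ≥ a polylog` and for `w ≤ a ^ 2 / polylog` applies,
then fewer than `X` (a power of the logarithm) rows have length at least `b` and there are at most
`X b` boxes below them, and one of the gaps `λ_i - λ_(i+1)`, `1 ≤ i ≤ X`, is at least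
`a ^ 2 / (8 X ^ 3)`.
-/

open Finset

namespace Vale.Agent.P181.TR.H850

open Vale.Agent.P181.H280 (plethMult)
open Vale.Agent.P181.T4 (ex ex_of_lt ex_anti)
open Vale.Agent.P181.SZ (tl)
open Vale.Agent.P181.PL (dn PolyS)
open Vale.Agent.P181.H467.NT (LinS)
open Vale.Agent.P181.TL (TwoLongPA dn2)
open Vale.Agent.P181.TL.H850 (few shape dn_two)

/-- `FD.FatLog`, word for word. -/
def FatS : Prop := ∃ (C : ℝ) (c : ℕ), 0 < C ∧ ∀ (a b n : ℕ) (lam : Fin n → ℕ), a ≤ b →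
  C * (1 + Real.log a) ^ c * (b : ℝ) ^ 2 ≤ ((b : ℝ) - a) * ∑ i, ((min b (lam i) : ℕ) : ℝ) →
  plethMult a b n lam ≤ plethMult b a n lam

lemma sum_ex {n : ℕ} (lam : Fin n → ℕ) (f : ℕ → ℕ → ℝ) :
    ∑ i : Fin n, f i (lam i) = ∑ i ∈ range n, f i (ex lam i) := by
  rw [← Fin.sum_univ_eq_sum_range (fun i => f i (ex lam i)) n]
  refine Finset.sum_congr rfl fun i _ => ?_
  rw [ex_of_lt lam i.2]

lemma ex_big {n : ℕ} (lam : Fin n → ℕ) {i : ℕ} (h : n ≤ i) : ex lam i = 0 := by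
  rw [ex, dif_neg (by omega)]

/-- The gap. -/
lemma gap {a b n : ℕ} {lam : Fin n → ℕ} {X : ℝ} (hanti : Antitone lam) (hX : 1 ≤ X) (ha : 0 < a)
    (hb : 0 < b) (h1 : ∑ i, ((min b (lam i) : ℕ) : ℝ) < X * b) (h2 : (b : ℝ) < X * a)
    (h3 : (a : ℝ) ^ 2 < X * dn lam 1) (h4 : 8 * X ^ 4 ≤ a) :
    ∃ i : ℕ, 1 ≤ i ∧ i < n ∧ (i : ℝ) ≤ X ∧
      (a : ℝ) ^ 2 ≤ 8 * X ^ 3 * ((ex lam i : ℝ) - ex lam (i + 1)) := by
  by_contra hcon
  push Not at hcon
  have haR : (0 : ℝ) < a := by exact_mod_cast ha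
  have hbR : (0 : ℝ) < b := by exact_mod_cast hb
  have hX0 : 0 < X := by linarith
  obtain ⟨N, hN⟩ : ∃ N : ℕ, N = ⌊X⌋₊ := ⟨_, rfl⟩
  have hN1 : (N : ℝ) ≤ X := by
    rw [hN]
    exact Nat.floor_le hX0.le
  have hN2 : X < (N : ℝ) + 1 := by
    rw [hN]
    exact Nat.lt_floor_add_one X
  -- the gaps
  have hg : ∀ i, 1 ≤ i → i ≤ N →
      8 * X ^ 3 * ((ex lam i : ℝ) - ex lam (i + 1)) < (a : ℝ) ^ 2 := by
    intro i hi hiN
    by_cases hin : i < n
    · exact hcon i hi hin (le_trans (by exact_mod_cast hiN) hN1)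
    · rw [ex_big lam (by omega), ex_big lam (by omega)]
      simp only [Nat.cast_zero, sub_zero, mul_zero]
      positivity
  have htel : ∀ M, M ≤ N → 8 * X ^ 3 * ((ex lam 1 : ℝ) - ex lam (M + 1)) ≤ M * (a : ℝ) ^ 2 := by
    intro M
    induction M with
    | zero =>
      intro _
      simp
    | succ M ih =>
      intro hM
      have e1 := ih (by omega)
      have e2 := hg (M + 1) (by omega) hM
      push_cast
      nlinarith [e1, e2]
  have e3 := htel N le_rfl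
  -- the row `N` is short
  have hS : ∑ i, ((min b (lam i) : ℕ) : ℝ) = ∑ i ∈ range n, ((min b (ex lam i) : ℕ) : ℝ) :=
    sum_ex lam (fun _ x => ((min b x : ℕ) : ℝ))
  have hrow : ex lam N < b := by
    by_contra hc
    push Not at hc
    have hNn : N < n := by
      by_contra hcc
      rw [ex_big lam (by omega)] at hc
      omega
    have e4 : ∑ i ∈ range (N + 1), (b : ℝ) ≤ ∑ i ∈ range n, ((min b (ex lam i) : ℕ) : ℝ) := by
      calc ∑ i ∈ range (N + 1), (b : ℝ) = ∑ i ∈ range (N + 1), ((min b (ex lam i) : ℕ) : ℝ) := by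
            refine Finset.sum_congr rfl fun i hi => ?_
            have e5 : ex lam N ≤ ex lam i := ex_anti hanti (by
              have := Finset.mem_range.1 hi
              omega)
            rw [min_eq_left (hc.trans e5)]
        _ ≤ _ := by
            refine Finset.sum_le_sum_of_subset_of_nonneg ?_ fun i _ _ => Nat.cast_nonneg _
            exact Finset.range_subset_range.2 (by omega)
    rw [Finset.sum_const, Finset.card_range, nsmul_eq_mul, ← hS, Nat.cast_add, Nat.cast_one] at e4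
    have e5 : X * (b : ℝ) < ((N : ℝ) + 1) * b := mul_lt_mul_of_pos_right hN2 hbR
    linarith
  -- row one of the shape below
  have hrow' : ex lam (N + 1) < b := lt_of_le_of_lt (ex_anti hanti (by omega)) hrow
  have hX3 : (0 : ℝ) < X ^ 3 := by positivity
  have e6 : 8 * X ^ 3 * (ex lam 1 : ℝ) ≤ X * (a : ℝ) ^ 2 + 8 * X ^ 3 * b := by
    have e7 : (ex lam (N + 1) : ℝ) ≤ b := by exact_mod_cast hrow'.le
    have e8 : (N : ℝ) * (a : ℝ) ^ 2 ≤ X * (a : ℝ) ^ 2 :=
      mul_le_mul_of_nonneg_right hN1 (by positivity)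
    have e9 : 8 * X ^ 3 * (ex lam (N + 1) : ℝ) ≤ 8 * X ^ 3 * b :=
      mul_le_mul_of_nonneg_left e7 (by positivity)
    nlinarith
  -- the boxes below row one
  have hw : (dn lam 1 : ℝ) ≤ X * b + N * (ex lam 1 : ℝ) := by
    have e10 : (dn lam 1 : ℝ) = ∑ i ∈ range n, (if 1 ≤ i then (ex lam i : ℝ) else 0) := by
      have := sum_ex lam (fun i x => if 1 ≤ i then (x : ℝ) else 0)
      rw [← this]
      unfold dn
      push_cast
      exact Finset.sum_congr rfl fun i _ => by split_ifs <;> rfl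
    have e11 : ∀ i ∈ range n, (if 1 ≤ i then (ex lam i : ℝ) else 0) ≤
        ((min b (ex lam i) : ℕ) : ℝ) + if i < N then (ex lam 1 : ℝ) else 0 := by
      intro i _
      by_cases hi : 1 ≤ i
      · rw [if_pos hi]
        by_cases hiN : i < N
        · rw [if_pos hiN]
          have e12 : (ex lam i : ℝ) ≤ ex lam 1 := by exact_mod_cast ex_anti hanti hi
          have e13 : (0 : ℝ) ≤ ((min b (ex lam i) : ℕ) : ℝ) := Nat.cast_nonneg _
          linarith
        · rw [if_neg hiN, add_zero]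
          have e12 : ex lam i < b := lt_of_le_of_lt (ex_anti hanti (by omega)) hrow
          rw [min_eq_right e12.le]
      · rw [if_neg hi]
        have e13 : (0 : ℝ) ≤ ((min b (ex lam i) : ℕ) : ℝ) := Nat.cast_nonneg _
        split_ifs <;> positivity
    rw [e10]
    refine (Finset.sum_le_sum e11).trans ?_
    rw [Finset.sum_add_distrib, ← hS]
    have e14 : ∑ i ∈ range n, (if i < N then (ex lam 1 : ℝ) else 0) ≤ N * (ex lam 1 : ℝ) := by
      rw [← Finset.sum_filter, Finset.sum_const, nsmul_eq_mul]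
      refine mul_le_mul_of_nonneg_right ?_ (Nat.cast_nonneg _)
      have e15 : (Finset.filter (fun i => i < N) (range n)).card ≤ (range N).card := by
        refine Finset.card_le_card fun i hi => ?_
        rw [Finset.mem_filter] at hi
        exact Finset.mem_range.2 hi.2
      rw [Finset.card_range] at e15
      exact_mod_cast e15
    linarith
  -- the contradiction
  have e16 : (N : ℝ) * (ex lam 1 : ℝ) ≤ X * (ex lam 1 : ℝ) :=
    mul_le_mul_of_nonneg_right hN1 (Nat.cast_nonneg _)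
  have e17 : 8 * X ^ 3 * (dn lam 1 : ℝ) ≤ 8 * X ^ 4 * b + X ^ 2 * (a : ℝ) ^ 2 + 8 * X ^ 4 * b := by
    have e18 : 8 * X ^ 3 * (dn lam 1 : ℝ) ≤ 8 * X ^ 3 * (X * b + X * (ex lam 1 : ℝ)) :=
      mul_le_mul_of_nonneg_left (by linarith) (by positivity)
    have e19 : X * (8 * X ^ 3 * (ex lam 1 : ℝ)) ≤ X * (X * (a : ℝ) ^ 2 + 8 * X ^ 3 * b) :=
      mul_le_mul_of_nonneg_left e6 hX0.le
    nlinarith
  have e20 : 8 * X ^ 2 * (a : ℝ) ^ 2 < 8 * X ^ 3 * (dn lam 1 : ℝ) := by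
    have e21 : 8 * X ^ 2 * (a : ℝ) ^ 2 < 8 * X ^ 2 * (X * dn lam 1) :=
      mul_lt_mul_of_pos_left h3 (by positivity)
    calc 8 * X ^ 2 * (a : ℝ) ^ 2 < 8 * X ^ 2 * (X * dn lam 1) := e21
      _ = _ := by ring
  -- `16 X ^ 4 b ≤ 7 X ^ 2 a ^ 2`
  have e22 : 16 * X ^ 4 * (b : ℝ) ≤ 16 * X ^ 5 * a := by
    have : 16 * X ^ 4 * (b : ℝ) ≤ 16 * X ^ 4 * (X * a) :=
      mul_le_mul_of_nonneg_left h2.le (by positivity)
    calc _ ≤ _ := this
      _ = _ := by ring
  have e23 : 16 * X ^ 5 * (a : ℝ) ≤ 2 * X * (a : ℝ) ^ 2 := by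
    have : 2 * X * a * (8 * X ^ 4) ≤ 2 * X * a * (a : ℝ) :=
      mul_le_mul_of_nonneg_left h4 (by positivity)
    calc _ = 2 * X * a * (8 * X ^ 4) := by ring
      _ ≤ _ := this
      _ = _ := by ring
  have e24 : 2 * X * (a : ℝ) ^ 2 ≤ 2 * X ^ 2 * (a : ℝ) ^ 2 := by
    refine mul_le_mul_of_nonneg_right ?_ (by positivity)
    nlinarith
  have e25 : 0 < X ^ 2 * (a : ℝ) ^ 2 := by positivity
  nlinarith

/-- The shape with a zero row. -/
def pad1 {n : ℕ} (lam : Fin n → ℕ) : Fin (n + 1) → ℕ := fun i =>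
  if h : (i : ℕ) < n then lam ⟨i, h⟩ else 0

lemma pad1_eq {n : ℕ} (lam : Fin n → ℕ) (i : Fin (n + 1)) : pad1 lam i = ex lam i := rfl

lemma pad1_mult (a b : ℕ) {n : ℕ} (lam : Fin n → ℕ) :
    plethMult a b (n + 1) (pad1 lam) = plethMult a b n lam := H530.pad_stmt a b n 1 lam

lemma pad1_D2 {n : ℕ} (lam : Fin n → ℕ) : D2 (pad1 lam) = D2 lam := by
  unfold D2
  rw [Fin.sum_univ_castSucc]
  have h1 : (if 2 ≤ ((Fin.last n : Fin (n + 1)) : ℕ) then pad1 lam (Fin.last n) else 0) = 0 := by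
    rw [pad1_eq, ex_big lam (by simp), ite_self]
  rw [h1, add_zero]
  refine Finset.sum_congr rfl fun i _ => ?_
  rw [pad1_eq, Fin.val_castSucc, ex_of_lt lam i.2]

lemma D2_le {n : ℕ} (lam : Fin n → ℕ) : D2 lam ≤ ∑ i, lam i := by
  unfold D2
  refine Finset.sum_le_sum fun i _ => ?_
  split_ifs
  · exact le_rfl
  · exact Nat.zero_le _

theorem tlx (hF : FatS) (hL : LinS) (hP : PolyS) (hA : TwoLongPA) (hR : TwoLongR) : TLX := by
  obtain ⟨CF, cF, hCF, hF⟩ := hF
  obtain ⟨CL, cL, hCL, hL⟩ := hL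
  obtain ⟨CP, cP, hCP, hP⟩ := hP
  obtain ⟨K, hK⟩ : ∃ K : ℝ, K = 2 * CF + CL + CP + 1 := ⟨_, rfl⟩
  have hK1 : 1 ≤ K := by linarith
  obtain ⟨k, hk⟩ : ∃ k : ℕ, k = cF + cL + cP := ⟨_, rfl⟩
  obtain ⟨CA, cA, hCA, hcA, hA⟩ := hA (8 * K ^ 3) ((3 * k : ℕ) : ℝ) (by positivity)
    (Nat.cast_nonneg _)
  obtain ⟨CR, cR, hCR, hcR, hR⟩ := hR (8 * K ^ 3) ((3 * k : ℕ) : ℝ) (by positivity)
    (Nat.cast_nonneg _)
  refine ⟨CA + CR + 8 * K ^ 5, ⌈cA⌉₊ + ⌈cR⌉₊ + 5 * k, by positivity, ?_⟩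
  intro a b hab n lam hdom hD
  by_cases hz : plethMult a b n lam = 0
  · rw [hz]
    exact Nat.zero_le _
  rcases Nat.eq_zero_or_pos (dn lam 1) with hw | hw
  · apply hL a b hab n lam
    rw [hw, Nat.cast_zero, mul_zero]
    positivity
  obtain ⟨hn, ha⟩ := shape hz hw
  obtain ⟨hanti, hsum, -⟩ := H530.zero_stmt a b n lam hz
  have hfew : a + D2 lam ≤ b + 1 → plethMult a b n lam ≤ plethMult b a n lam := by
    intro h
    obtain ⟨j, rfl⟩ := Nat.exists_eq_add_of_le' hn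
    have e1 : D2 lam = dn2 lam := dn_two lam
    rw [e1] at h
    exact few lam ha h
  rcases hD with hD | hD
  swap
  · exact hfew hD
  rcases Nat.lt_or_ge n 3 with hn3 | hn3
  · obtain rfl : n = 2 := by omega
    apply hfew
    have e1 : D2 lam = 0 := by
      unfold D2
      rw [Fin.sum_univ_two]
      simp
    omega
  have hb : 0 < b := by omega
  have haR : (0 : ℝ) < a := by
    exact_mod_cast (by omega : 0 < a)
  have hbR : (0 : ℝ) < b := by exact_mod_cast hb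
  obtain ⟨L, hLdef⟩ : ∃ L : ℝ, L = 1 + Real.log a := ⟨_, rfl⟩
  have hL1 : 1 ≤ L := by
    rw [hLdef]
    linarith [Real.log_natCast_nonneg a]
  have hpow : ∀ {i j : ℕ}, i ≤ j → L ^ i ≤ L ^ j := fun h => pow_le_pow_right₀ hL1 h
  obtain ⟨X, hX⟩ : ∃ X : ℝ, X = K * L ^ k := ⟨_, rfl⟩
  have hLk : 1 ≤ L ^ k := one_le_pow₀ hL1
  have hX1 : 1 ≤ X := by
    rw [hX]
    nlinarith
  have hXle : ∀ {C : ℝ} {c : ℕ}, 0 ≤ C → C ≤ K → c ≤ k → C * L ^ c ≤ X := by
    intro C c h0 h1 h2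
    rw [hX]
    exact mul_le_mul h1 (hpow h2) (by positivity) (by linarith)
  by_cases hlin : CL * (1 + Real.log a) ^ cL * (dn lam 1 : ℝ) ≤ (a : ℝ) ^ 2
  · exact hL a b hab n lam hlin
  by_cases hpol : CP * a * (1 + Real.log a) ^ cP ≤ b
  · exact hP a b hpol n lam
  by_cases hfat : CF * (1 + Real.log a) ^ cF * (b : ℝ) ^ 2 ≤
      ((b : ℝ) - a) * ∑ i, ((min b (lam i) : ℕ) : ℝ)
  · exact hF a b n lam (by omega) hfat
  push Not at hlin hpol hfat
  rw [← hLdef] at hlin hpol hfat hD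
  have h3 : (a : ℝ) ^ 2 < X * dn lam 1 :=
    lt_of_lt_of_le hlin (mul_le_mul_of_nonneg_right
      (hXle hCL.le (by linarith) (by omega)) (Nat.cast_nonneg _))
  have h2 : (b : ℝ) < X * a := by
    refine lt_of_lt_of_le hpol ?_
    have := mul_le_mul_of_nonneg_right (hXle hCP.le (by linarith) (by omega : cP ≤ k)) haR.le
    calc CP * a * L ^ cP = CP * L ^ cP * a := by ring
      _ ≤ X * a := this
  have h1 : ∑ i, ((min b (lam i) : ℕ) : ℝ) < X * b := by
    obtain ⟨S, hS⟩ : ∃ S : ℝ, S = ∑ i, ((min b (lam i) : ℕ) : ℝ) := ⟨_, rfl⟩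
    have hS0 : 0 ≤ S := by
      rw [hS]
      exact Finset.sum_nonneg fun i _ => Nat.cast_nonneg _
    rw [← hS] at hfat ⊢
    have e1 : (5 : ℝ) * a ≤ b := by exact_mod_cast hab
    have e2 : (b : ℝ) * S ≤ 2 * (((b : ℝ) - a) * S) := by nlinarith
    have e3 : 2 * CF * L ^ cF ≤ X := hXle (by positivity) (by linarith) (by omega)
    have e4 : 2 * CF * L ^ cF * (b : ℝ) ^ 2 ≤ X * (b : ℝ) ^ 2 :=
      mul_le_mul_of_nonneg_right e3 (by positivity)
    have e5 : (b : ℝ) * S < b * (X * b) := by nlinarith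
    exact lt_of_mul_lt_mul_left e5 hbR.le
  -- `a` is large
  have hbig : 8 * K ^ 5 * L ^ (5 * k) ≤
      (CA + CR + 8 * K ^ 5) * L ^ (⌈cA⌉₊ + ⌈cR⌉₊ + 5 * k) :=
    mul_le_mul (by linarith) (hpow (by omega)) (by positivity) (by positivity)
  have h4 : 8 * X ^ 4 ≤ a := by
    have e1 : (D2 lam : ℝ) ≤ (a : ℝ) * b := by
      have := D2_le lam
      rw [hsum] at this
      exact_mod_cast this
    have e2 : 8 * X ^ 5 * a ≤ a * (X * a) := by
      calc 8 * X ^ 5 * a = 8 * K ^ 5 * L ^ (5 * k) * a := by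
            rw [hX, mul_pow, ← pow_mul, Nat.mul_comm k 5]
            ring
        _ ≤ (CA + CR + 8 * K ^ 5) * L ^ (⌈cA⌉₊ + ⌈cR⌉₊ + 5 * k) * a :=
            mul_le_mul_of_nonneg_right hbig haR.le
        _ ≤ D2 lam := hD
        _ ≤ (a : ℝ) * b := e1
        _ ≤ a * (X * a) := mul_le_mul_of_nonneg_left h2.le haR.le
    have e3 : X * a * (8 * X ^ 4) ≤ X * a * a := by
      calc X * a * (8 * X ^ 4) = 8 * X ^ 5 * a := by ring
        _ ≤ a * (X * a) := e2
        _ = X * a * a := by ring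
    exact le_of_mul_le_mul_left e3 (by positivity)
  obtain ⟨i, hi1, hin, hiX, hgap⟩ := gap hanti hX1 (by omega) hb h1 h2 h3 h4
  have hX3 : 8 * X ^ 3 = 8 * K ^ 3 * (1 + Real.log a) ^ ((3 * k : ℕ) : ℝ) := by
    rw [Real.rpow_natCast, ← hLdef, hX, mul_pow, ← pow_mul, Nat.mul_comm k 3]
    ring
  have hrp : ∀ {C c : ℝ}, 0 < C → C ≤ CA + CR + 8 * K ^ 5 → ⌈c⌉₊ ≤ ⌈cA⌉₊ + ⌈cR⌉₊ + 5 * k →
      C * (1 + Real.log a) ^ c * a ≤ D2 lam := by
    intro C c h0 h5 h6
    rw [← hLdef]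
    refine le_trans ?_ hD
    refine mul_le_mul_of_nonneg_right ?_ haR.le
    refine mul_le_mul h5 ?_ (by positivity) (by positivity)
    rw [← Real.rpow_natCast]
    exact Real.rpow_le_rpow_of_exponent_le hL1 ((Nat.le_ceil c).trans (by exact_mod_cast h6))
  have hdom' := hdom (by omega)
  have hmax : (0 : ℝ) < 8 * K ^ 5 := by positivity
  rcases Nat.lt_or_ge i 2 with hi2 | hi2
  · -- two long rows
    obtain rfl : i = 1 := by omega
    obtain ⟨j, rfl⟩ := Nat.exists_eq_add_of_le' hn3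
    have v1 : ex lam 1 = lam 1 := by
      rw [ex_of_lt lam (by omega)]
      exact congrArg lam (Fin.ext (Nat.mod_eq_of_lt (show 1 < j + 3 by omega)).symm)
    have v2 : ex lam (1 + 1) = lam 2 := by
      rw [ex_of_lt lam (by omega)]
      exact congrArg lam (Fin.ext (Nat.mod_eq_of_lt (show 2 < j + 3 by omega)).symm)
    have e1 : D2 lam = dn2 (k := j + 1) lam := dn_two (k := j + 1) lam
    refine hA a b j lam hanti hsum (by omega) ?_ ?_ ?_
    · rw [← hX3, ← v1, ← v2]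
      exact hgap
    · rw [← e1]
      exact hrp hCA (by linarith) (by omega)
    · rw [← e1, ← v1, ex_of_lt lam (by omega)]
      exact hdom'
  · -- at least three long rows
    obtain ⟨j, rfl⟩ : ∃ j, n = j + 1 + i := ⟨n - 1 - i, by omega⟩
    have hz' : plethMult a b (j + 1 + i + 1) (pad1 lam) ≠ 0 := by
      rw [pad1_mult]
      exact hz
    obtain ⟨hanti', hsum', -⟩ := H530.zero_stmt a b _ (pad1 lam) hz'
    have hta : ta (tl (pad1 lam)) 0 = ex lam (i + 1) := rfl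
    have hr := hR a b j i (pad1 lam) hanti' hsum' (by omega) hi2 ?_ ?_ ?_ ?_
    · rwa [pad1_mult, pad1_mult] at hr
    · rw [← hX3]
      refine hiX.trans ?_
      have e2 : X ≤ X ^ 3 := le_self_pow₀ hX1 (by norm_num)
      linarith
    · intro l
      rw [← hX3]
      refine hgap.trans (mul_le_mul_of_nonneg_left ?_ (by positivity))
      have e3 : tp (tl (pad1 lam)) l = ex lam ((l : ℕ) + 1) := rfl
      have e4 : ex lam i ≤ ex lam ((l : ℕ) + 1) := ex_anti hanti (by have := l.2; omega)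
      have e5 : (ex lam i : ℝ) ≤ ex lam ((l : ℕ) + 1) := by exact_mod_cast e4
      rw [hta, e3]
      linarith
    · rw [pad1_D2]
      exact hrp hCR (by linarith) (by omega)
    · rw [pad1_D2]
      have e6 : tl (pad1 lam) 0 = lam ⟨1, by omega⟩ := by
        have : tl (pad1 lam) 0 = ex lam 1 := rfl
        rw [this, ex_of_lt lam (by omega)]
      have e7 : pad1 lam 0 = lam ⟨0, by omega⟩ := by
        have : pad1 lam 0 = ex lam 0 := rfl
        rw [this, ex_of_lt lam (by omega)]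
      rw [e6, e7]
      exact hdom'

end Vale.Agent.P181.TR.H850
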